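import Mathlib

/-!
Weighted count of sets each of whose layers is chosen from a short candidate list which
depends only on the layer sizes.
-/

open Finset

namespace Vale.Agent.P034b

theorem sum_choose_mul_pow_le {w : ℝ} (hw : 0 ≤ w) (k N : ℕ) :
    ∑ s ∈ range N, (k.choose s : ℝ) * w ^ s ≤ Real.exp (k * w) := by
  refine le_trans (sum_le_sum fun s _ => ?_)
    (Real.sum_le_exp_of_nonneg (mul_nonneg (Nat.cast_nonneg k) hw) N)
  rw [mul_pow, mul_div_right_comm]
  exact mul_le_mul_of_nonneg_right (Nat.choose_le_pow_div s k) (pow_nonneg hw s)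

variable {X : Type*} [Fintype X] [DecidableEq X] {ι : Type*} [Fintype ι] [DecidableEq ι]

omit [DecidableEq X] in
theorem count (m : X → ι) (c : (ι → ℕ) → ι → Finset X)
    (hc : ∀ r j, (c r j).card ≤ 4 * ∑ i, r i) (z : ι → ℝ) (hz : ∀ j, 0 ≤ z j)
    (hzs : ∑ j, z j ≤ 1 / 128) (D : Finset (Finset X))
    (hD : ∀ R ∈ D, R.Nonempty ∧ ∀ x ∈ R, x ∈ c (fun j => (R.filter fun y => m y = j).card) (m x)) :
    ∑ R ∈ D, ∏ x ∈ R, z (m x) ≤ 3 / 16 := by
  classical
  let r : Finset X → ι → ℕ := fun R j => (R.filter fun y => m y = j).card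
  have hprod : ∀ R : Finset X, ∏ x ∈ R, z (m x) = ∏ j, z j ^ r R j := by
    intro R
    rw [← prod_fiberwise R m fun x => z (m x)]
    refine prod_congr rfl fun j _ => ?_
    rw [prod_congr rfl fun x hx => by rw [(mem_filter.1 hx).2], prod_const]
  have hsumr : ∀ R : Finset X, ∑ j, r R j = R.card := fun R =>
    (card_eq_sum_card_fiberwise (fun x _ => mem_univ (m x))).symm
  set N := Fintype.card X with hN
  let term : (ι → ℕ) → ℝ := fun s => ∏ j, (((4 * ∑ i, s i).choose (s j) : ℝ) * z j ^ s j)
  have hfib : ∀ s, ((D.filter fun R => r R = s).card : ℝ)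
      ≤ ∏ j, ((4 * ∑ i, s i).choose (s j) : ℝ) := by
    intro s
    have h1 : (D.filter fun R => r R = s).card
        ≤ (Fintype.piFinset fun j => (c s j).powersetCard (s j)).card := by
      refine card_le_card_of_injOn (fun R j => R.filter fun y => m y = j) ?_ ?_
      · intro R hR
        simp only [coe_filter, Set.mem_ofPred_eq] at hR
        simp only [mem_coe, Fintype.mem_piFinset, mem_powersetCard]
        intro j
        refine ⟨fun x hx => ?_, congrFun hR.2 j⟩
        obtain ⟨hxR, hxj⟩ := mem_filter.1 hx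
        have h := (hD R hR.1).2 x hxR
        rw [show (fun j => (R.filter fun y => m y = j).card) = s from hR.2, hxj] at h
        exact h
      · intro R _ R' _ h
        ext x
        have := congrArg (fun S => x ∈ S) (congrFun h (m x))
        simpa using this
    rw [Fintype.card_piFinset] at h1
    have h2 : ∏ j, ((c s j).powersetCard (s j)).card ≤ ∏ j, (4 * ∑ i, s i).choose (s j) :=
      prod_le_prod' fun j _ => by
        rw [card_powersetCard]
        exact Nat.choose_le_choose _ (hc s j)
    exact_mod_cast h1.trans h2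
  have hstep1 : ∑ R ∈ D, ∏ x ∈ R, z (m x) ≤ ∑ s ∈ D.image r, term s := by
    rw [← sum_fiberwise_of_maps_to (g := r) (t := D.image r)
      (fun R hR => mem_image_of_mem r hR)]
    refine sum_le_sum fun s _ => ?_
    have h : ∀ R ∈ D.filter (fun R => r R = s), ∏ x ∈ R, z (m x) = ∏ j, z j ^ s j := by
      intro R hR
      rw [hprod R, (mem_filter.1 hR).2]
    rw [sum_congr rfl h, sum_const, nsmul_eq_mul]
    simp only [term]
    rw [prod_mul_distrib]
    exact mul_le_mul_of_nonneg_right (hfib s) (prod_nonneg fun j _ => pow_nonneg (hz j) _)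
  have hterm0 : ∀ s, 0 ≤ term s := fun s =>
    prod_nonneg fun j _ => mul_nonneg (Nat.cast_nonneg _) (pow_nonneg (hz j) _)
  have hstep2 : ∑ s ∈ D.image r, term s ≤ ∑ k ∈ Icc 1 N, ((3 : ℝ) / 32) ^ k := by
    rw [← sum_fiberwise_of_maps_to (g := fun s : ι → ℕ => ∑ j, s j) (t := Icc 1 N)]
    swap
    · intro s hs
      obtain ⟨R, hR, rfl⟩ := mem_image.1 hs
      rw [mem_Icc, hsumr]
      exact ⟨(hD R hR).1.card_pos, card_le_univ R⟩
    refine sum_le_sum fun k _ => ?_
    calc ∑ s ∈ (D.image r).filter (fun s => ∑ j, s j = k), term s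
        = ∑ s ∈ (D.image r).filter (fun s => ∑ j, s j = k),
            (1 / 32 : ℝ) ^ k * ∏ j, (((4 * k).choose (s j) : ℝ) * (32 * z j) ^ s j) := by
          refine sum_congr rfl fun s hs => ?_
          have hsk : ∑ j, s j = k := (mem_filter.1 hs).2
          have hk : (1 / 32 : ℝ) ^ k = ∏ j, (1 / 32 : ℝ) ^ s j := by
            rw [prod_pow_eq_pow_sum, hsk]
          simp only [term, hsk]
          rw [hk, ← prod_mul_distrib]
          refine prod_congr rfl fun j _ => ?_
          rw [mul_left_comm, ← mul_pow]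
          congr 2
          ring
      _ ≤ ∑ s ∈ Fintype.piFinset (fun _ : ι => range (N + 1)),
            (1 / 32 : ℝ) ^ k * ∏ j, (((4 * k).choose (s j) : ℝ) * (32 * z j) ^ s j) := by
          refine sum_le_sum_of_subset_of_nonneg (fun s hs => ?_) fun s _ _ => ?_
          · obtain ⟨R, _, rfl⟩ := mem_image.1 (mem_filter.1 hs).1
            rw [Fintype.mem_piFinset]
            intro j
            rw [mem_range]
            have : r R j ≤ N := card_le_univ _
            omega
          · exact mul_nonneg (by positivity) (prod_nonneg fun j _ =>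
              mul_nonneg (Nat.cast_nonneg _) (pow_nonneg (by linarith [hz j]) _))
      _ = (1 / 32 : ℝ) ^ k * ∏ j, ∑ s ∈ range (N + 1),
            (((4 * k).choose s : ℝ) * (32 * z j) ^ s) := by
          rw [← mul_sum, prod_univ_sum]
      _ ≤ (1 / 32 : ℝ) ^ k * ∏ j, Real.exp ((4 * k : ℕ) * (32 * z j)) := by
          refine mul_le_mul_of_nonneg_left (prod_le_prod (fun j _ => ?_) fun j _ => ?_)
            (by positivity)
          · exact sum_nonneg fun s _ =>
              mul_nonneg (Nat.cast_nonneg _) (pow_nonneg (by linarith [hz j]) _)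
          · exact sum_choose_mul_pow_le (by linarith [hz j]) _ _
      _ ≤ (1 / 32 : ℝ) ^ k * (3 : ℝ) ^ k := by
          refine mul_le_mul_of_nonneg_left ?_ (by positivity)
          rw [← Real.exp_sum, ← mul_sum, ← mul_sum]
          calc Real.exp (((4 * k : ℕ) : ℝ) * (32 * ∑ j, z j)) ≤ Real.exp (k * 1) := by
                refine Real.exp_le_exp.2 ?_
                push_cast
                nlinarith [Nat.cast_nonneg (α := ℝ) k]
            _ = Real.exp 1 ^ k := Real.exp_nat_mul 1 k
            _ ≤ 3 ^ k := pow_le_pow_left₀ (Real.exp_pos 1).le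
                (by linarith [Real.exp_one_lt_d9]) k
      _ = (3 / 32 : ℝ) ^ k := by rw [← mul_pow]; norm_num
  have hgeom : ∑ k ∈ Icc 1 N, ((3 : ℝ) / 32) ^ k ≤ 3 / 16 := by
    have h1 := geom_sum_Ico_le_of_lt_one (m := 1) (n := N + 1)
      (show (0 : ℝ) ≤ 3 / 32 by norm_num) (by norm_num)
    rw [Finset.Ico_add_one_right_eq_Icc] at h1
    refine h1.trans ?_
    norm_num
  linarith

end Vale.Agent.P034b
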