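import Mathlib

/-!
The best sum of weights over at most `4 M` elements of a set, and how it changes when an
element is added to the set or when `M` drops by one.
-/

open Finset

namespace Vale.Agent.P034b

variable {X : Type*} [DecidableEq X]

omit [DecidableEq X] in
theorem exists_topSet (A : Finset X) (w : X → ℝ) (M : ℕ) :
    ∃ U : Finset X, U ⊆ A ∧ U.card ≤ 4 * M ∧
      ∀ V : Finset X, V ⊆ A → V.card ≤ 4 * M → ∑ x ∈ V, w x ≤ ∑ x ∈ U, w x := by
  obtain ⟨U, hU, hmax⟩ := exists_max_image (A.powerset.filter fun U => U.card ≤ 4 * M)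
    (fun U => ∑ x ∈ U, w x) ⟨∅, by simp⟩
  simp only [mem_filter, mem_powerset] at hU hmax
  exact ⟨U, hU.1, hU.2, fun V h1 h2 => hmax V ⟨h1, h2⟩⟩

/-- A heaviest subset of `A` with at most `4 M` elements. -/
noncomputable def topSet (A : Finset X) (w : X → ℝ) (M : ℕ) : Finset X :=
  (exists_topSet A w M).choose

/-- The weight of a heaviest subset of `A` with at most `4 M` elements. -/
noncomputable def top (A : Finset X) (w : X → ℝ) (M : ℕ) : ℝ :=
  ∑ x ∈ topSet A w M, w x

omit [DecidableEq X] in
theorem topSet_subset (A : Finset X) (w : X → ℝ) (M : ℕ) : topSet A w M ⊆ A :=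
  (exists_topSet A w M).choose_spec.1

omit [DecidableEq X] in
theorem card_topSet (A : Finset X) (w : X → ℝ) (M : ℕ) : (topSet A w M).card ≤ 4 * M :=
  (exists_topSet A w M).choose_spec.2.1

omit [DecidableEq X] in
theorem le_top' {A V : Finset X} (w : X → ℝ) {M : ℕ} (h : V ⊆ A) (h' : V.card ≤ 4 * M) :
    ∑ x ∈ V, w x ≤ top A w M :=
  (exists_topSet A w M).choose_spec.2.2 V h h'

theorem top_nonneg (A : Finset X) (w : X → ℝ) (M : ℕ) : 0 ≤ top A w M := by
  simpa using le_top' w (empty_subset A) (show (∅ : Finset X).card ≤ 4 * M by simp)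

theorem top_mono (A : Finset X) (w : X → ℝ) {M M' : ℕ} (h : M' ≤ M) :
    top A w M' ≤ top A w M :=
  le_top' w (topSet_subset A w M') ((card_topSet A w M').trans (by omega))

theorem top_insert {w : X → ℝ} (hw : ∀ x, 0 ≤ w x) (A : Finset X) (x : X) (M : ℕ) :
    top (insert x A) w M ≤ top A w M + w x := by
  have hsub : (topSet (insert x A) w M).erase x ⊆ A := fun y hy => by
    obtain ⟨hne, hy⟩ := mem_erase.1 hy
    exact (mem_insert.1 (topSet_subset _ _ _ hy)).resolve_left hne
  have h1 := le_top' w hsub (card_erase_le.trans (card_topSet _ _ _))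
  by_cases hx : x ∈ topSet (insert x A) w M
  · rw [sum_erase_eq_sub hx] at h1
    unfold top at h1 ⊢
    linarith
  · rw [erase_eq_of_notMem hx] at h1
    unfold top at h1 ⊢
    linarith [hw x]

/-- If `x ∈ A` is not among the heaviest `4 (M + 1)` elements, then the four elements lost
in passing to `M` weigh at least `4 w x`. -/
theorem top_drop {w : X → ℝ} (hw : ∀ x, 0 ≤ w x) {A : Finset X} {x : X} {M : ℕ}
    (hxA : x ∈ A) (hx : x ∉ topSet A w (M + 1)) :
    top A w M + 4 * w x ≤ top A w (M + 1) := by
  rcases (hw x).lt_or_eq with hpos | h0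
  swap
  · rw [← h0]; simpa using top_mono A w (Nat.le_succ M)
  set U := topSet A w (M + 1) with hUdef
  have hUA : U ⊆ A := topSet_subset _ _ _
  have htop : top A w (M + 1) = ∑ y ∈ U, w y := rfl
  have hcard : 4 * (M + 1) ≤ U.card := by
    by_contra hlt
    have h := le_top' w (insert_subset hxA hUA)
      (show (insert x U).card ≤ 4 * (M + 1) by rw [card_insert_of_notMem hx]; omega)
    rw [sum_insert hx, htop] at h
    linarith
  have hge : ∀ u ∈ U, w x ≤ w u := by
    intro u hu
    have hxU' : x ∉ U.erase u := fun h => hx (mem_of_mem_erase h)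
    have h := le_top' w (M := M + 1) (insert_subset hxA ((erase_subset u U).trans hUA))
      (by
        rw [card_insert_of_notMem hxU', card_erase_of_mem hu]
        have := card_topSet A w (M + 1)
        rw [← hUdef] at this
        omega)
    rw [sum_insert hxU', sum_erase_eq_sub hu, htop] at h
    linarith
  have h4 : 4 ≤ (U \ topSet A w M).card := by
    have h1 := le_card_sdiff (topSet A w M) U
    have h2 := card_topSet A w M
    omega
  obtain ⟨W, hW, hWc⟩ := exists_subset_card_eq h4
  have hdisj : Disjoint (topSet A w M) W :=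
    disjoint_left.2 fun y hy hyW => (mem_sdiff.1 (hW hyW)).2 hy
  have h := le_top' w (M := M + 1)
    (union_subset (topSet_subset A w M) (hW.trans (sdiff_subset.trans hUA)))
    (by
      rw [card_union_of_disjoint hdisj]
      have := card_topSet A w M
      omega)
  rw [sum_union hdisj] at h
  have h2 := card_nsmul_le_sum W w (w x) fun u hu => hge u (mem_sdiff.1 (hW hu)).1
  rw [hWc] at h2
  simp only [nsmul_eq_mul, Nat.cast_ofNat] at h2
  have : top A w M = ∑ y ∈ topSet A w M, w y := rfl
  linarith

end Vale.Agent.P034b
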