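import Mathlib
import Vale.Agent.P034b.Top

/-!
The deterministic step: for every layering `l` and every member `H`, either a nonempty
candidate set inside `H` is found, or some member is light with respect to `l`.
-/

open Finset

namespace Vale.Agent.P034b

variable {X : Type*} [Fintype X] [DecidableEq X] {n : ℕ}

/-- The counts of `R` in each layer of `m`. -/
def cnt (m : X → Fin (n + 1)) (R : Finset X) (j : Fin (n + 1)) : ℕ :=
  (R.filter fun x => m x = j).card

/-- The number counted by `r` in layers at most `i`. -/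
def cum (r : Fin (n + 1) → ℕ) (i : ℕ) : ℕ :=
  ∑ j ∈ univ.filter (fun j : Fin (n + 1) => (j : ℕ) ≤ i), r j

omit [Fintype X] [DecidableEq X] in
theorem cum_cnt (m : X → Fin (n + 1)) (R : Finset X) (i : ℕ) :
    cum (cnt m R) i = (R.filter fun x => (m x : ℕ) ≤ i).card := by
  rw [card_eq_sum_card_fiberwise (f := m) (t := univ.filter fun j : Fin (n + 1) => (j : ℕ) ≤ i)
    (fun x hx => by simp at hx ⊢; exact hx.2)]
  refine sum_congr rfl fun j hj => ?_
  rw [mem_filter] at hj
  unfold cnt
  congr 1
  ext x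
  simp only [mem_filter]
  constructor
  · rintro ⟨h1, h2⟩; exact ⟨⟨h1, h2 ▸ hj.2⟩, h2⟩
  · rintro ⟨⟨h1, -⟩, h2⟩; exact ⟨h1, h2⟩

/-- The elements in layer at least `i`. -/
def upper (m : X → Fin (n + 1)) (i : ℕ) : Finset X :=
  univ.filter fun y => i ≤ (m y : ℕ)

/-- The potential. -/
noncomputable def score (lam : Finset X → X → ℝ) (m : X → Fin (n + 1))
    (r : Fin (n + 1) → ℕ) (H : Finset X) : ℝ :=
  (∑ x, lam H x * 2 ^ (m x : ℕ))
    + (∑ i ∈ range n, 2 ^ (i + 1) * (top (upper m i) (lam H) (cum r i) / 4))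
    - 2 * ∑ x, lam H x

omit [DecidableEq X] in
theorem exists_sel (F : Finset (Finset X)) (lam : Finset X → X → ℝ) (m : X → Fin (n + 1))
    (r : Fin (n + 1) → ℕ) :
    ∃ H, ∀ H' ∈ F, H ∈ F ∧ score lam m r H ≤ score lam m r H' := by
  rcases F.eq_empty_or_nonempty with h | h
  · exact ⟨∅, by simp [h]⟩
  · obtain ⟨H, hH, hmin⟩ := exists_min_image F (score lam m r) h
    exact ⟨H, fun H' hH' => ⟨hH, hmin H' hH'⟩⟩

/-- A member minimising the potential. -/
noncomputable def sel (F : Finset (Finset X)) (lam : Finset X → X → ℝ) (m : X → Fin (n + 1))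
    (r : Fin (n + 1) → ℕ) : Finset X :=
  (exists_sel F lam m r).choose

/-- The candidates for layer `j`. -/
noncomputable def cand (F : Finset (Finset X)) (lam : Finset X → X → ℝ) (m : X → Fin (n + 1))
    (r : Fin (n + 1) → ℕ) (j : Fin (n + 1)) : Finset X :=
  if (j : ℕ) < n then topSet (upper m j) (lam (sel F lam m r)) (cum r j) else ∅

theorem card_cand (F : Finset (Finset X)) (lam : Finset X → X → ℝ) (m : X → Fin (n + 1))
    (r : Fin (n + 1) → ℕ) (j : Fin (n + 1)) : (cand F lam m r j).card ≤ 4 * ∑ i, r i := by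
  unfold cand
  split_ifs
  · refine (card_topSet _ _ _).trans (Nat.mul_le_mul_left 4 ?_)
    exact sum_le_sum_of_subset (filter_subset _ _)
  · simp

theorem lt_of_mem_cand {F : Finset (Finset X)} {lam : Finset X → X → ℝ} {m : X → Fin (n + 1)}
    {r : Fin (n + 1) → ℕ} {j : Fin (n + 1)} {x : X} (h : x ∈ cand F lam m r j) : (j : ℕ) < n := by
  unfold cand at h
  split_ifs at h with hj
  · exact hj
  · simp at h

theorem det (F : Finset (Finset X)) {lam : Finset X → X → ℝ} (hlam : ∀ H x, 0 ≤ lam H x)
    (hoff : ∀ H x, x ∉ H → lam H x = 0) (l : X → Fin (n + 1)) {H : Finset X} (hH : H ∈ F) :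
    (∃ R : Finset X, R.Nonempty ∧ R ⊆ H ∧ ∃ m : X → Fin (n + 1),
        (∀ x, x ∉ R → m x = l x) ∧ ∀ x ∈ R, x ∈ cand F lam m (cnt m R) (m x)) ∨
      (∃ H' ∈ F, ∑ x, lam H' x * 2 ^ (l x : ℕ) ≤ 2 * ∑ x, lam H' x) := by
  classical
  let ups : (X → Fin (n + 1)) → Finset X := fun m => univ.filter fun x => m x < l x
  let f : (X → Fin (n + 1)) × Finset X → ℝ := fun c => score lam c.1 (cnt c.1 (ups c.1)) c.2
  let C : Finset ((X → Fin (n + 1)) × Finset X) :=
    (univ.filter fun m => (∀ x, m x ≤ l x) ∧ ∀ x, x ∉ H → m x = l x) ×ˢ F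
  let m0 : X → Fin (n + 1) := fun x => if x ∈ H then 0 else l x
  have hm0 : (m0, H) ∈ C := by
    simp only [C, mem_product, mem_filter, mem_univ, true_and]
    refine ⟨⟨fun x => ?_, fun x hx => if_neg hx⟩, hH⟩
    simp only [m0]; split_ifs
    · exact Fin.zero_le _
    · exact le_rfl
  have hf0 : f (m0, H) ≤ 0 := by
    have ht : (0 : ℝ) ≤ ∑ x, lam H x := sum_nonneg fun x _ => hlam H x
    have h1 : ∑ x, lam H x * 2 ^ (m0 x : ℕ) = ∑ x, lam H x := by
      refine sum_congr rfl fun x _ => ?_
      by_cases hx : x ∈ H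
      · simp [m0, hx]
      · simp [hoff H x hx]
    have h2 : ∑ i ∈ range n,
        (2 : ℝ) ^ (i + 1) * (top (upper m0 i) (lam H) (cum (cnt m0 (ups m0)) i) / 4)
          ≤ ∑ x, lam H x := by
      refine le_trans (sum_le_sum (g := fun i => if i = 0 then ∑ x, lam H x else 0) fun i _ => ?_) ?_
      · split_ifs with hi
        · subst hi
          have : top (upper m0 0) (lam H) (cum (cnt m0 (ups m0)) 0) ≤ ∑ x, lam H x :=
            sum_le_sum_of_subset_of_nonneg (subset_univ _) fun x _ _ => hlam H x
          linarith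
        · have : top (upper m0 i) (lam H) (cum (cnt m0 (ups m0)) i) = 0 := by
            refine sum_eq_zero fun x hx => hoff H x fun hxH => ?_
            have hxu := topSet_subset _ _ _ hx
            simp [upper, m0, hxH] at hxu
            exact hi hxu
          simp [this]
      · rw [sum_ite_eq']
        split_ifs
        · exact le_rfl
        · exact ht
    simp only [f, score]
    linarith
  obtain ⟨c0, hc0, hmin⟩ := exists_min_image C f ⟨_, hm0⟩
  obtain ⟨⟨m, H0⟩, hc1, hmax⟩ := exists_max_image (C.filter fun c => f c = f c0)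
    (fun c => ∑ x, (c.1 x : ℕ)) ⟨c0, mem_filter.2 ⟨hc0, rfl⟩⟩
  obtain ⟨hc1, hfc1⟩ := mem_filter.1 hc1
  simp only [C, mem_product, mem_filter, mem_univ, true_and] at hc1
  obtain ⟨⟨hle, hoffH⟩, hH0⟩ := hc1
  set R := ups m with hR
  set H1 := sel F lam m (cnt m R) with hH1
  obtain ⟨hH1F, hH1le⟩ := (exists_sel F lam m (cnt m R)).choose_spec H0 hH0
  have hf1 : f (m, H1) ≤ f c0 := le_of_le_of_eq hH1le hfc1
  by_cases hRne : R.Nonempty
  · refine Or.inl ⟨R, hRne, fun x hx => ?_, m, fun x hx => ?_, fun x hx => ?_⟩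
    · by_contra hxH
      simp [hR, ups, hoffH x hxH] at hx
    · simp [hR, ups] at hx
      exact le_antisymm (hle x) hx
    by_contra hnot
    have hxlt : m x < l x := by simpa [hR, ups] using hx
    have hxn : (m x : ℕ) < n := by
      have h1 : (m x : ℕ) < (l x : ℕ) := hxlt
      omega
    set i := (m x : ℕ) with hi
    have hnot' : x ∉ topSet (upper m i) (lam H1) (cum (cnt m R) i) := by
      unfold cand at hnot
      rwa [← hi, if_pos hxn, ← hH1] at hnot
    let m' : X → Fin (n + 1) := Function.update m x ⟨i + 1, by omega⟩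
    have hm'x : (m' x : ℕ) = i + 1 := by simp [m']
    have hm'y : ∀ y, y ≠ x → m' y = m y := fun y hy => by simp [m', hy]
    have hmm' : ∀ y, (m y : ℕ) ≤ (m' y : ℕ) := fun y => by
      by_cases hy : y = x
      · subst hy; omega
      · rw [hm'y y hy]
    have hC' : (m', H1) ∈ C := by
      simp only [C, mem_product, mem_filter, mem_univ, true_and]
      refine ⟨⟨fun y => ?_, fun y hy => ?_⟩, hH1F⟩
      · by_cases hyx : y = x
        · subst hyx
          rw [Fin.le_def, hm'x]
          exact Nat.succ_le_of_lt hxlt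
        · rw [hm'y y hyx]; exact hle y
      · rw [hm'y y (fun h => by subst h; exact (hxlt.ne (hoffH _ hy)))]
        exact hoffH y hy
    have hups : ups m' ⊆ R := fun y hy => by
      simp only [hR, ups, mem_filter, mem_univ, true_and] at hy ⊢
      exact lt_of_le_of_lt (Fin.le_def.2 (hmm' y)) hy
    have hM : ∀ j, cum (cnt m' (ups m')) j ≤ cum (cnt m R) j := fun j => by
      rw [cum_cnt, cum_cnt]
      refine card_le_card fun y hy => ?_
      simp only [mem_filter] at hy ⊢
      exact ⟨hups hy.1, (hmm' y).trans hy.2⟩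
    obtain ⟨k, hk⟩ : ∃ k, cum (cnt m R) i = k + 1 := by
      refine ⟨cum (cnt m R) i - 1, ?_⟩
      have : 0 < cum (cnt m R) i := by
        rw [cum_cnt]
        exact card_pos.2 ⟨x, mem_filter.2 ⟨hx, le_rfl⟩⟩
      omega
    have hMi : cum (cnt m' (ups m')) i ≤ k := by
      have h1 : cum (cnt m' (ups m')) i ≤ ((R.filter fun y => (m y : ℕ) ≤ i).erase x).card := by
        rw [cum_cnt]
        refine card_le_card fun y hy => ?_
        simp only [mem_filter, mem_erase] at hy ⊢
        refine ⟨fun h => ?_, hups hy.1, (hmm' y).trans hy.2⟩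
        subst h; omega
      have hxmem : x ∈ R.filter (fun y => (m y : ℕ) ≤ i) := mem_filter.2 ⟨hx, le_rfl⟩
      rw [card_erase_of_mem hxmem, ← cum_cnt, hk] at h1
      omega
    have hupper : ∀ j, upper m' j = if j = i + 1 then insert x (upper m j) else upper m j := by
      intro j
      ext y
      by_cases hy : y = x
      · subst hy
        split_ifs with hj <;> simp [upper, hm'x, ← hi] <;> omega
      · split_ifs <;> simp [upper, hm'y y hy, hy]
    set w := lam H1 x with hw
    have hw0 : 0 ≤ w := hlam H1 x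
    have hterm : ∀ j ∈ range n,
        (2 : ℝ) ^ (j + 1) * (top (upper m' j) (lam H1) (cum (cnt m' (ups m')) j) / 4)
          - 2 ^ (j + 1) * (top (upper m j) (lam H1) (cum (cnt m R) j) / 4)
        ≤ (if j = i then -(2 * 2 ^ i * w) else 0) + (if j = i + 1 then 2 ^ i * w else 0) := by
      intro j _
      have hpow : (0 : ℝ) < 2 ^ (j + 1) := by positivity
      rw [hupper j]
      rcases eq_or_ne j i with hji | hji
      · subst hji
        rw [if_neg (Nat.ne_of_lt (Nat.lt_succ_self _)), if_pos rfl,
          if_neg (Nat.ne_of_lt (Nat.lt_succ_self _))]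
        have hxA : x ∈ upper m i := by simp [upper, ← hi]
        have h1 := top_mono (upper m i) (lam H1) hMi
        rw [hk] at hnot'
        have h2 := top_drop (hlam H1) hxA hnot'
        rw [hk, ← mul_sub, pow_succ']
        have h2i : (0 : ℝ) ≤ 2 * 2 ^ i := by positivity
        have := mul_le_mul_of_nonneg_left (show
          top (upper m i) (lam H1) (cum (cnt m' (ups m')) i) / 4
            - top (upper m i) (lam H1) (k + 1) / 4 ≤ -w by linarith) h2i
        linarith
      · rcases eq_or_ne j (i + 1) with hj1 | hj1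
        · subst hj1
          rw [if_pos rfl, if_neg hji, if_pos rfl]
          have h1 := top_insert (hlam H1) (upper m (i + 1)) x (cum (cnt m' (ups m')) (i + 1))
          have h2 := top_mono (upper m (i + 1)) (lam H1) (hM (i + 1))
          rw [← mul_sub, pow_succ, pow_succ]
          have h2i : (0 : ℝ) ≤ 2 ^ i * 2 * 2 := by positivity
          have := mul_le_mul_of_nonneg_left (show
            top (insert x (upper m (i + 1))) (lam H1) (cum (cnt m' (ups m')) (i + 1)) / 4
              - top (upper m (i + 1)) (lam H1) (cum (cnt m R) (i + 1)) / 4 ≤ w / 4 by linarith) h2i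
          linarith
        · rw [if_neg hj1, if_neg hji, if_neg hj1, ← mul_sub]
          have h2 := top_mono (upper m j) (lam H1) (hM j)
          have := mul_nonpos_of_nonneg_of_nonpos hpow.le
            (show top (upper m j) (lam H1) (cum (cnt m' (ups m')) j) / 4
              - top (upper m j) (lam H1) (cum (cnt m R) j) / 4 ≤ 0 by linarith)
          linarith
    have hsum := sum_le_sum hterm
    rw [sum_sub_distrib, sum_add_distrib, sum_ite_eq', sum_ite_eq',
      if_pos (mem_range.2 hxn)] at hsum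
    have h2le : (if i + 1 ∈ range n then 2 ^ i * w else 0) ≤ 2 ^ i * w := by
      split_ifs
      · exact le_rfl
      · positivity
    have hfirst : (∑ y, lam H1 y * 2 ^ (m' y : ℕ)) - ∑ y, lam H1 y * 2 ^ (m y : ℕ) = 2 ^ i * w := by
      rw [← sum_sub_distrib, sum_eq_single x]
      · rw [hm'x, ← hi, ← hw, pow_succ]; ring
      · intro y _ hy; rw [hm'y y hy]; ring
      · simp
    have hfle : f (m', H1) ≤ f c0 := by
      refine le_trans ?_ hf1
      simp only [f, score, ← hR]
      linarith
    have hfeq : f (m', H1) = f c0 := le_antisymm hfle (hmin _ hC')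
    have hsz := hmax (m', H1) (mem_filter.2 ⟨hC', hfeq⟩)
    have : ∑ y, (m y : ℕ) < ∑ y, (m' y : ℕ) :=
      sum_lt_sum (fun y _ => hmm' y) ⟨x, mem_univ _, by omega⟩
    simp only at hsz
    omega
  · refine Or.inr ⟨H1, hH1F, ?_⟩
    have hml : m = l := funext fun x => le_antisymm (hle x) (by
      by_contra hlt
      exact hRne ⟨x, by simp [hR, ups, not_le.1 hlt]⟩)
    have h0 : f (m, H1) ≤ 0 := hf1.trans ((hmin _ hm0).trans hf0)
    have h1 : 0 ≤ ∑ i ∈ range n,
        (2 : ℝ) ^ (i + 1) * (top (upper m i) (lam H1) (cum (cnt m R) i) / 4) :=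
      sum_nonneg fun i _ => mul_nonneg (by positivity)
        (div_nonneg (top_nonneg _ _ _) (by norm_num))
    simp only [f, score, ← hR] at h0
    rw [hml] at h0 h1
    linarith

end Vale.Agent.P034b
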