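import Mathlib
import Vale.Agent.P034b.Det
import Vale.Agent.P034b.Count

/-!
A fractional cover of cost at most `1/2` at `p` yields a cover of cost at most `1/2` at
`p / 55296`: averaging over random layerings.
-/

open Finset

namespace Vale.Agent.P034b

/-- The distribution of the layer of an element. -/
noncomputable def layerProb (b : ℝ) (n : ℕ) (j : Fin (n + 1)) : ℝ :=
  if (j : ℕ) < n then b * 2 ^ (j : ℕ) else 1 - b * (2 ^ n - 1)

theorem sum_layerProb (b : ℝ) (n : ℕ) : ∑ j, layerProb b n j = 1 := by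
  rw [Fin.sum_univ_castSucc]
  simp only [layerProb, Fin.val_castSucc, Fin.is_lt, if_true, Fin.val_last, lt_irrefl, if_false]
  rw [Fin.sum_univ_eq_sum_range (fun i => b * (2:ℝ) ^ i), ← mul_sum,
    geom_sum_eq (by norm_num) n]
  ring

theorem layerProb_pos {b : ℝ} (hb : 0 < b) {n : ℕ} (hn : b * 2 ^ n ≤ 1 / 2) (j : Fin (n + 1)) :
    0 < layerProb b n j := by
  unfold layerProb
  split_ifs
  · positivity
  · linarith

theorem exp_bound {y : ℝ} (hy : 0 < y) : y * Real.exp (-y) ≤ 2 / y := by
  rw [Real.exp_neg, ← div_eq_mul_inv, div_le_div_iff₀ (Real.exp_pos y) hy]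
  nlinarith [Real.quadratic_le_exp_of_nonneg hy.le]

theorem light_bound {b : ℝ} (hb : 0 < b) {n : ℕ} (hn' : 1 / 4 < b * 2 ^ n) :
    ∑ j, layerProb b n j * Real.exp (2 - 2 ^ (j : ℕ)) ≤ 72 * b := by
  rw [Fin.sum_univ_castSucc]
  simp only [layerProb, Fin.val_castSucc, Fin.is_lt, if_true, Fin.val_last, lt_irrefl, if_false]
  have he : Real.exp 2 ≤ 9 := by
    rw [show (2:ℝ) = 1 + 1 by norm_num, Real.exp_add]
    nlinarith [Real.exp_one_lt_d9, Real.exp_pos 1]
  have hsplit : ∀ y : ℝ, Real.exp (2 - y) = Real.exp 2 * Real.exp (-y) := fun y => by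
    rw [← Real.exp_add, sub_eq_add_neg]
  have h1 : ∑ i : Fin n, b * 2 ^ (i : ℕ) * Real.exp (2 - 2 ^ (i : ℕ)) ≤ 9 * (4 * b) := by
    calc ∑ i : Fin n, b * 2 ^ (i : ℕ) * Real.exp (2 - 2 ^ (i : ℕ))
        ≤ ∑ i : Fin n, 9 * (2 * b) * (1 / 2) ^ (i : ℕ) := by
          refine sum_le_sum fun i _ => ?_
          have h := exp_bound (show (0:ℝ) < 2 ^ (i : ℕ) by positivity)
          rw [hsplit]
          have hpos : 0 ≤ b * (2 ^ (i : ℕ) * Real.exp (-2 ^ (i : ℕ))) := by positivity
          calc b * 2 ^ (i : ℕ) * (Real.exp 2 * Real.exp (-2 ^ (i : ℕ)))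
              = Real.exp 2 * (b * (2 ^ (i : ℕ) * Real.exp (-2 ^ (i : ℕ)))) := by ring
            _ ≤ 9 * (b * (2 / 2 ^ (i : ℕ))) :=
                mul_le_mul he (mul_le_mul_of_nonneg_left h hb.le) hpos (by norm_num)
            _ = 9 * (2 * b) * (1 / 2) ^ (i : ℕ) := by rw [div_pow, one_pow]; ring
      _ = 9 * (2 * b) * ∑ i ∈ range n, (1 / 2 : ℝ) ^ i := by
          rw [mul_sum, Fin.sum_univ_eq_sum_range (fun i => 9 * (2 * b) * (1 / 2 : ℝ) ^ i)]
      _ ≤ 9 * (2 * b) * 2 :=
          mul_le_mul_of_nonneg_left (sum_geometric_two_le n) (by positivity)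
      _ = 9 * (4 * b) := by ring
  have hN : (0 : ℝ) < 2 ^ n := by positivity
  have h2 : Real.exp (-2 ^ n) ≤ 4 * b := by
    rw [Real.exp_neg]
    have h3 : (2 : ℝ) ^ n ≤ Real.exp (2 ^ n) := by linarith [Real.add_one_le_exp ((2:ℝ) ^ n)]
    calc (Real.exp (2 ^ n))⁻¹ ≤ ((2 : ℝ) ^ n)⁻¹ := inv_anti₀ hN h3
      _ ≤ 4 * b := by rw [inv_le_iff_one_le_mul₀ hN]; linarith
  have h4 : (1 - b * (2 ^ n - 1)) * Real.exp (2 - 2 ^ n) ≤ 1 * (9 * (4 * b)) := by
    rw [hsplit]
    refine mul_le_mul ?_ (mul_le_mul he h2 (Real.exp_pos _).le (by norm_num)) (by positivity)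
      zero_le_one
    have : (1 : ℝ) ≤ 2 ^ n := one_le_pow₀ (by norm_num)
    nlinarith
  linarith

variable {X : Type*} [Fintype X] [DecidableEq X] {n : ℕ}

/-- The nonempty candidate sets for the layering `m`. -/
noncomputable def cands (F : Finset (Finset X)) (lam : Finset X → X → ℝ)
    (m : X → Fin (n + 1)) : Finset (Finset X) :=
  univ.filter fun R => R.Nonempty ∧ ∀ x ∈ R, x ∈ cand F lam m (cnt m R) (m x)

open Classical in
/-- All sets that some layering agreeing with `l` outside of them makes candidates. -/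
noncomputable def coverOf (F : Finset (Finset X)) (lam : Finset X → X → ℝ)
    (l : X → Fin (n + 1)) : Finset (Finset X) :=
  univ.filter fun R => ∃ m : X → Fin (n + 1), (∀ x, x ∉ R → m x = l x) ∧ R ∈ cands F lam m

theorem cover_cost {b : ℝ} (hb : 0 < b) (hn : b * 2 ^ n ≤ 1 / 2)
    (F : Finset (Finset X)) (lam : Finset X → X → ℝ) :
    ∑ l : X → Fin (n + 1), (∏ x, layerProb b n (l x))
        * ∑ R ∈ coverOf F lam l, (b / 256) ^ R.card ≤ 3 / 16 := by
  classical
  set π := layerProb b n with hπdef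
  have hπ : ∀ j, 0 < π j := fun j => layerProb_pos hb hn j
  let P : (X → Fin (n + 1)) → ℝ := fun l => ∏ x, π (l x)
  have hP : ∀ l, 0 ≤ P l := fun l => prod_nonneg fun x _ => (hπ _).le
  set a := b / 256 with ha
  have ha0 : 0 ≤ a := by positivity
  let z : Fin (n + 1) → ℝ := fun j => if (j : ℕ) < n then a / π j else 0
  have hzs : ∑ j, z j ≤ 1 / 128 := by
    rw [Fin.sum_univ_castSucc]
    simp only [z, hπdef, layerProb, Fin.val_castSucc, Fin.is_lt, if_true, Fin.val_last,
      lt_irrefl, if_false, add_zero]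
    have h : ∀ i : Fin n, a / (b * 2 ^ (i : ℕ)) = 1 / 256 * (1 / 2 : ℝ) ^ (i : ℕ) := by
      intro i
      rw [ha, div_pow, one_pow]
      field_simp
    rw [sum_congr rfl fun i _ => h i, ← mul_sum, Fin.sum_univ_eq_sum_range (fun i => (1/2:ℝ) ^ i)]
    nlinarith [sum_geometric_two_le n]
  have hz : ∀ j, 0 ≤ z j := fun j => by
    simp only [z]; split_ifs
    · exact div_nonneg ha0 (hπ j).le
    · exact le_rfl
  have hcount : ∀ m : X → Fin (n + 1), ∑ R ∈ cands F lam m, ∏ x ∈ R, z (m x) ≤ 3 / 16 :=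
    fun m => count m (cand F lam m) (card_cand F lam m) z hz hzs _
      fun R hR => (mem_filter.1 hR).2
  have hinner : ∀ m R, R ∈ cands F lam m →
      (∑ l : X → Fin (n + 1), if ∀ x, x ∉ R → m x = l x then P l * a ^ R.card else 0)
        = P m * ∏ x ∈ R, z (m x) := by
    intro m R hR
    have hset : (univ.filter fun l : X → Fin (n + 1) => ∀ x, x ∉ R → m x = l x)
        = Fintype.piFinset (fun x => if x ∈ R then univ else {m x}) := by
      ext l
      simp only [mem_filter, mem_univ, true_and, Fintype.mem_piFinset]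
      refine forall_congr' fun x => ?_
      split_ifs with hx <;> simp [hx, eq_comm]
    have hval : ∀ x, ∑ j ∈ (if x ∈ R then univ else {m x}), π j
        = if x ∈ R then 1 else π (m x) := by
      intro x
      split_ifs
      · exact sum_layerProb b n
      · simp
    rw [← sum_filter, ← sum_mul, hset]
    simp only [P]
    rw [← prod_univ_sum (fun x => if x ∈ R then univ else {m x}) (fun _ j => π j),
      prod_congr rfl fun x _ => hval x]
    have hPm : ∏ x, π (m x) = (∏ x, if x ∈ R then 1 else π (m x)) * ∏ x ∈ R, π (m x) := by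
      rw [← Fintype.prod_ite_mem R fun x => π (m x), ← prod_mul_distrib]
      refine prod_congr rfl fun x _ => ?_
      split_ifs <;> simp
    rw [hPm, mul_assoc, ← prod_mul_distrib, ← prod_const]
    congr 1
    refine prod_congr rfl fun x hx => ?_
    have := lt_of_mem_cand ((mem_filter.1 hR).2.2 x hx)
    simp only [z, if_pos this]
    field_simp [(hπ (m x)).ne']
  calc ∑ l : X → Fin (n + 1), P l * ∑ R ∈ coverOf F lam l, a ^ R.card
      ≤ ∑ l : X → Fin (n + 1), ∑ m : X → Fin (n + 1), ∑ R ∈ cands F lam m,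
          (if ∀ x, x ∉ R → m x = l x then P l * a ^ R.card else 0) := by
        refine sum_le_sum fun l _ => ?_
        rw [mul_sum]
        have hR : ∀ R ∈ coverOf F lam l, P l * a ^ R.card
            ≤ ∑ m : X → Fin (n + 1), if R ∈ cands F lam m then
                (if ∀ x, x ∉ R → m x = l x then P l * a ^ R.card else 0) else 0 := by
          intro R hR
          obtain ⟨m, hm, hmc⟩ := (mem_filter.1 hR).2
          refine le_trans ?_ (single_le_sum (fun m' _ => ?_) (mem_univ m))
          · rw [if_pos hmc, if_pos hm]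
          · split_ifs <;> first | exact le_rfl | exact mul_nonneg (hP l) (pow_nonneg ha0 _)
        refine (sum_le_sum hR).trans ((sum_le_sum_of_subset_of_nonneg (subset_univ _)
          fun R _ _ => sum_nonneg fun m' _ => ?_).trans (le_of_eq ?_))
        · split_ifs <;> first | exact le_rfl | exact mul_nonneg (hP l) (pow_nonneg ha0 _)
        · rw [sum_comm]
          refine sum_congr rfl fun m _ => ?_
          rw [sum_ite_mem, univ_inter]
    _ = ∑ m : X → Fin (n + 1), ∑ R ∈ cands F lam m, P m * ∏ x ∈ R, z (m x) := by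
        rw [sum_comm]
        refine sum_congr rfl fun m _ => ?_
        rw [sum_comm]
        exact sum_congr rfl fun R hR => hinner m R hR
    _ ≤ ∑ m : X → Fin (n + 1), P m * (3 / 16) :=
        sum_le_sum fun m _ => by
          rw [← mul_sum]; exact mul_le_mul_of_nonneg_left (hcount m) (hP m)
    _ = 3 / 16 := by
        rw [← sum_mul]
        simp only [P]
        rw [← Fintype.prod_sum (fun (_ : X) j => π j)]
        simp [hπdef, sum_layerProb]

/-- A fractional cover of cost at most `1/2` at `p` gives a cover of cost at most `1/2`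
at `p / 55296`. -/
theorem main {p : ℝ} (hp0 : 0 < p) (hp1 : p ≤ 1) (F : Finset (Finset X)) (g : Finset X → ℝ)
    (hg : ∀ S, 0 ≤ g S) (hw : ∀ H ∈ F, 1 ≤ ∑ S ∈ H.powerset, g S)
    (hc : ∑ S, g S * p ^ S.card ≤ 1 / 2) :
    ∃ G : Finset (Finset X), (∀ H ∈ F, ∃ S ∈ G, S ⊆ H)
      ∧ ∑ S ∈ G, (p / 55296) ^ S.card ≤ 1 / 2 := by
  classical
  set b := p / 216 with hbdef
  have hb : 0 < b := by positivity
  have hb1 : b ≤ 1 / 216 := by rw [hbdef]; linarith
  have hex : ∃ n : ℕ, 1 / 4 < b * 2 ^ n := by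
    obtain ⟨n, hn⟩ := pow_unbounded_of_one_lt (1 / 4 / b) (show (1:ℝ) < 2 by norm_num)
    exact ⟨n, by rw [div_lt_iff₀ hb] at hn; linarith⟩
  set n := Nat.find hex with hndef
  have hn' : 1 / 4 < b * 2 ^ n := Nat.find_spec hex
  have hn : b * 2 ^ n ≤ 1 / 2 := by
    rcases Nat.eq_zero_or_pos n with h | h
    · rw [h, pow_zero]; linarith
    · have := Nat.find_min hex (show n - 1 < Nat.find hex by omega)
      rw [not_lt] at this
      rw [show n = (n - 1) + 1 by omega, pow_succ]
      linarith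
  let g' : Finset X → ℝ := fun S => if S = ∅ then 0 else g S
  have hg' : ∀ S, 0 ≤ g' S := fun S => by
    simp only [g']; split_ifs
    · exact le_rfl
    · exact hg S
  let lam : Finset X → X → ℝ := fun H x =>
    ∑ S ∈ H.powerset, if x ∈ S then g' S else 0
  have hlam : ∀ H x, 0 ≤ lam H x := fun H x => sum_nonneg fun S _ => by
    split_ifs
    · exact hg' S
    · exact le_rfl
  have hoff : ∀ H x, x ∉ H → lam H x = 0 := fun H x hx => sum_eq_zero fun S hS =>
    if_neg fun h => hx (mem_powerset.1 hS h)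
  have hlin : ∀ H (f : X → ℝ), ∑ x, lam H x * f x = ∑ S ∈ H.powerset, g' S * ∑ x ∈ S, f x := by
    intro H f
    simp only [lam, sum_mul]
    rw [sum_comm]
    refine sum_congr rfl fun S _ => ?_
    rw [mul_sum, ← Fintype.sum_ite_mem S fun x => g' S * f x]
    refine sum_congr rfl fun x _ => ?_
    split_ifs <;> simp
  have hZ : ∀ H ∈ F, 1 / 2 ≤ ∑ S ∈ H.powerset, g' S := by
    intro H hH
    have h0 : g ∅ ≤ 1 / 2 := by
      refine le_trans ?_ hc
      refine le_trans (le_of_eq ?_) (single_le_sum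
        (fun S _ => mul_nonneg (hg S) (pow_nonneg hp0.le _)) (mem_univ (∅ : Finset X)))
      simp
    have h1 : ∑ S ∈ H.powerset, g S = (∑ S ∈ H.powerset, g' S) + g ∅ := by
      rw [← sub_eq_iff_eq_add', ← sum_sub_distrib, sum_eq_single ∅]
      · simp [g']
      · intro S _ hS; simp [g', hS]
      · simp
    linarith [hw H hH]
  -- the two averaged quantities
  let P : (X → Fin (n + 1)) → ℝ := fun l => ∏ x, layerProb b n (l x)
  have hP : ∀ l, 0 ≤ P l := fun l => prod_nonneg fun x _ => (layerProb_pos hb hn _).le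
  have hP1 : ∑ l, P l = 1 := by
    simp only [P]
    rw [← Fintype.prod_sum (fun (_ : X) j => layerProb b n j)]
    simp [sum_layerProb]
  let val : (X → Fin (n + 1)) → ℝ := fun l =>
    ∑ S, g' S * Real.exp (∑ x ∈ S, (2 - 2 ^ (l x : ℕ)))
  have hval : ∑ l, P l * val l ≤ 1 / 6 := by
    calc ∑ l, P l * val l
        = ∑ S, g' S * ∑ l, P l * Real.exp (∑ x ∈ S, (2 - 2 ^ (l x : ℕ))) := by
          simp only [val, mul_sum]
          rw [sum_comm]
          exact sum_congr rfl fun S _ => sum_congr rfl fun l _ => by ring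
      _ = ∑ S, g' S * (∑ j, layerProb b n j * Real.exp (2 - 2 ^ (j : ℕ))) ^ S.card := by
          refine sum_congr rfl fun S _ => ?_
          congr 1
          have h1 : ∀ l : X → Fin (n + 1), P l * Real.exp (∑ x ∈ S, (2 - 2 ^ (l x : ℕ)))
              = ∏ x, layerProb b n (l x)
                  * (if x ∈ S then Real.exp (2 - 2 ^ (l x : ℕ)) else 1) := by
            intro l
            rw [prod_mul_distrib, Fintype.prod_ite_mem, Real.exp_sum]
          rw [sum_congr rfl fun l _ => h1 l, ← Fintype.prod_sum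
            (fun x j => layerProb b n j * (if x ∈ S then Real.exp (2 - 2 ^ (j : ℕ)) else 1)),
            ← prod_const, ← Fintype.prod_ite_mem S]
          refine prod_congr rfl fun x _ => ?_
          split_ifs
          · rfl
          · simp [sum_layerProb]
      _ ≤ ∑ S, 1 / 3 * (g S * p ^ S.card) := by
          refine sum_le_sum fun S _ => ?_
          by_cases hS : S = ∅
          · simp only [g', if_pos hS, zero_mul]
            exact mul_nonneg (by norm_num) (mul_nonneg (hg S) (pow_nonneg hp0.le _))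
          · have hcard : 1 ≤ S.card := (nonempty_iff_ne_empty.2 hS).card_pos
            have h0 : 0 ≤ ∑ j, layerProb b n j * Real.exp (2 - 2 ^ (j : ℕ)) :=
              sum_nonneg fun j _ =>
                mul_nonneg (layerProb_pos hb hn j).le (Real.exp_pos _).le
            have h1 : (∑ j, layerProb b n j * Real.exp (2 - 2 ^ (j : ℕ))) ^ S.card
                ≤ 1 / 3 * p ^ S.card := by
              refine (pow_le_pow_left₀ h0 ((light_bound hb hn').trans
                (le_of_eq (show 72 * b = 1 / 3 * p by rw [hbdef]; ring))) _).trans ?_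
              rw [mul_pow]
              refine mul_le_mul_of_nonneg_right ?_ (pow_nonneg hp0.le _)
              exact pow_le_of_le_one (by norm_num) (by norm_num) (by omega)
            simp only [g', if_neg hS]
            calc g S * (∑ j, layerProb b n j * Real.exp (2 - 2 ^ (j : ℕ))) ^ S.card
                ≤ g S * (1 / 3 * p ^ S.card) := mul_le_mul_of_nonneg_left h1 (hg S)
              _ = 1 / 3 * (g S * p ^ S.card) := by ring
      _ ≤ 1 / 6 := by rw [← mul_sum]; linarith
  have hcost := cover_cost hb hn F lam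
  -- some layering is good
  obtain ⟨l, hl⟩ : ∃ l, (∑ R ∈ coverOf F lam l, (b / 256) ^ R.card) + val l < 1 / 2 := by
    by_contra hall
    push Not at hall
    have h1 : ∑ l, P l * (1 / 2)
        ≤ ∑ l, P l * ((∑ R ∈ coverOf F lam l, (b / 256) ^ R.card) + val l) :=
      sum_le_sum fun l _ => mul_le_mul_of_nonneg_left (hall l) (hP l)
    rw [← sum_mul, hP1] at h1
    simp only [mul_add, sum_add_distrib] at h1
    simp only [P] at h1 hval
    linarith
  have hval0 : 0 ≤ val l := sum_nonneg fun S _ => mul_nonneg (hg' S) (Real.exp_pos _).le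
  have hcost0 : 0 ≤ ∑ R ∈ coverOf F lam l, (b / 256) ^ R.card :=
    sum_nonneg fun R _ => by positivity
  refine ⟨coverOf F lam l, fun H hH => ?_, ?_⟩
  · rcases det F hlam hoff l hH with ⟨R, hne, hRH, m, hm, hmc⟩ | ⟨H', hH', hle⟩
    · exact ⟨R, mem_filter.2 ⟨mem_univ _, m, hm, mem_filter.2 ⟨mem_univ _, hne, hmc⟩⟩, hRH⟩
    · exfalso
      have h1 : 0 ≤ ∑ S ∈ H'.powerset, g' S * ∑ x ∈ S, ((2 : ℝ) - 2 ^ (l x : ℕ)) := by
        rw [← hlin]
        simp only [mul_sub, sum_sub_distrib, ← sum_mul]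
        linarith
      have h2 : ∑ S ∈ H'.powerset, (g' S + g' S * ∑ x ∈ S, ((2 : ℝ) - 2 ^ (l x : ℕ))) ≤ val l := by
        refine le_trans (sum_le_sum fun S _ => ?_) (sum_le_sum_of_subset_of_nonneg
          (subset_univ _) fun S _ _ => mul_nonneg (hg' S) (Real.exp_pos _).le)
        calc g' S + g' S * ∑ x ∈ S, ((2 : ℝ) - 2 ^ (l x : ℕ))
            = g' S * ((∑ x ∈ S, ((2 : ℝ) - 2 ^ (l x : ℕ))) + 1) := by ring
          _ ≤ _ := mul_le_mul_of_nonneg_left (Real.add_one_le_exp _) (hg' S)
      rw [sum_add_distrib] at h2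
      linarith [hZ H' hH']
  · rw [show p / 55296 = b / 256 by rw [hbdef]; ring]
    linarith

end Vale.Agent.P034b
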